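import Mathlib

namespace Vale.Agent.P038

open Finset

variable {V : Type*}

/-- `w` is at directed distance exactly two from `v`. -/
def DistTwo (A : V → V → Prop) (v w : V) : Prop :=
  w ≠ v ∧ ¬ A v w ∧ ∃ u, A v u ∧ A u w

/-- `+1` if `u` is at distance exactly two from `y`, `-1` if `y → u`, `0` otherwise. -/
noncomputable def score (A : V → V → Prop) (y u : V) : ℝ := by
  classical exact if A y u then -1 else if DistTwo A y u then 1 else 0

lemma score_nonneg {A : V → V → Prop} {y u : V} (h : ¬ A y u) : 0 ≤ score A y u := by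
  classical
  unfold score
  split_ifs <;> norm_num

lemma score_sum [Fintype V] {A : V → V → Prop} (w : V → ℝ) (v : V) :
    (∑ u, w u * score A v u)
      = (by classical exact ∑ u ∈ univ.filter (DistTwo A v), w u)
        - (by classical exact ∑ u ∈ univ.filter (A v), w u) := by
  classical
  rw [Finset.sum_filter, Finset.sum_filter, ← Finset.sum_sub_distrib]
  refine Finset.sum_congr rfl fun u _ => ?_
  by_cases h1 : A v u
  · have h2 : ¬ DistTwo A v u := fun h => h.2.1 h1
    simp [score, h1, h2]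
  · by_cases h2 : DistTwo A v u <;> simp [score, h1, h2]

/-- The restricted simplex. -/
def simplexOn [Fintype V] (Q : Finset V) : Set (V → ℝ) :=
  stdSimplex ℝ V ∩ {p | ∀ x, x ∉ Q → p x = 0}

lemma isCompact_simplexOn [Fintype V] (Q : Finset V) : IsCompact (simplexOn Q) := by
  refine (isCompact_stdSimplex ℝ V).inter_right ?_
  have : {p : V → ℝ | ∀ x, x ∉ Q → p x = 0} = ⋂ x ∈ {x | x ∉ Q}, {p | p x = 0} := by
    ext p; simp
  rw [this]
  exact isClosed_biInter fun x _ => isClosed_eq (continuous_apply x) continuous_const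

/-- Weighted certificate criterion. -/
theorem weighted_criterion [Fintype V] (A : V → V → Prop)
    (Q : Finset V) (hQ : Q.Nonempty) (σ : V → V → ℝ) (hσ : ∀ x y, σ x y = -σ y x)
    (ρ : V → V → ℝ) (hρ : ∀ u x, 0 ≤ ρ u x)
    (hcert : ∀ u, (∀ y ∈ Q, ¬ A y u) ∨
      ((∃ x ∈ Q, 0 < ρ u x) ∧ ∀ x ∈ Q, ∀ y ∈ Q,
        σ x y * (ρ u x - ρ u y) ≤ ρ u x * score A y u + ρ u y * score A x u))
    (w : V → ℝ) (hw : ∀ u, 0 ≤ w u) :
    ∃ v ∈ Q, 0 ≤ ∑ u, w u * score A v u := by
  classical
  -- vertices handled by the entropy term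
  set U : Finset V := univ.filter (fun u => 0 < w u ∧ ∃ y ∈ Q, A y u) with hU
  set P : V → (V → ℝ) → ℝ := fun u p => ∑ x, ρ u x * p x with hP
  set Φ : (V → ℝ) → ℝ := fun p => ∏ u ∈ U, P u p ^ w u with hΦ
  have hUpos : ∀ u ∈ U, 0 < w u := fun u hu => (Finset.mem_filter.1 hu).2.1
  have hcertU : ∀ u ∈ U, (∃ x ∈ Q, 0 < ρ u x) ∧ ∀ x ∈ Q, ∀ y ∈ Q,
        σ x y * (ρ u x - ρ u y) ≤ ρ u x * score A y u + ρ u y * score A x u := by
    intro u hu
    obtain ⟨y, hy, hyu⟩ := (Finset.mem_filter.1 hu).2.2
    exact (hcert u).resolve_left fun h => h y hy hyu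
  have hPnn : ∀ u, ∀ p ∈ simplexOn Q, 0 ≤ P u p := fun u p hp =>
    Finset.sum_nonneg fun x _ => mul_nonneg (hρ u x) (hp.1.1 x)
  -- the uniform distribution on Q
  obtain ⟨p₀, hp₀⟩ : ∃ p : V → ℝ, p = fun x => if x ∈ Q then (Q.card : ℝ)⁻¹ else 0 :=
    ⟨_, rfl⟩
  have hQc : (0 : ℝ) < Q.card := by exact_mod_cast hQ.card_pos
  have hp₀mem : p₀ ∈ simplexOn Q := by
    refine ⟨⟨fun x => ?_, ?_⟩, fun x hx => by rw [hp₀]; exact if_neg hx⟩
    · simp only [hp₀]; split_ifs; exacts [inv_nonneg.2 hQc.le, le_rfl]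
    · simp only [hp₀]
      rw [← Finset.sum_filter]
      simp [hQc.ne']
  have hΦ₀ : 0 < Φ p₀ := by
    refine Finset.prod_pos fun u hu => Real.rpow_pos_of_pos ?_ _
    obtain ⟨⟨x, hxQ, hx⟩, -⟩ := hcertU u hu
    refine lt_of_lt_of_le ?_ (Finset.single_le_sum
      (f := fun x => ρ u x * p₀ x)
      (fun z _ => mul_nonneg (hρ u z) (hp₀mem.1.1 z)) (Finset.mem_univ x))
    rw [hp₀]
    show 0 < ρ u x * (if x ∈ Q then (Q.card : ℝ)⁻¹ else 0)
    rw [if_pos hxQ]
    exact mul_pos hx (inv_pos.2 hQc)
  have hcont : Continuous Φ := by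
    refine continuous_finsetProd _ fun u hu => ?_
    refine Continuous.rpow_const ?_ fun _ => Or.inr (hUpos u hu).le
    exact continuous_finsetSum _ fun x _ => continuous_const.mul (continuous_apply x)
  obtain ⟨p, hp, hmax⟩ :=
    (isCompact_simplexOn Q).exists_isMaxOn ⟨p₀, hp₀mem⟩ hcont.continuousOn
  have hΦp : 0 < Φ p := lt_of_lt_of_le hΦ₀ (hmax hp₀mem)
  have hPp : ∀ u ∈ U, 0 < P u p := by
    intro u hu
    refine (hPnn u p hp).lt_of_ne fun h => ?_
    exact hΦp.ne' (Finset.prod_eq_zero hu (by rw [← h, Real.zero_rpow (hUpos u hu).ne']))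
  -- the Fisher flow
  set g : V → ℝ := fun x => ∑ y, σ x y * p y with hg
  set B : V → ℝ := fun u => ∑ x, ρ u x * (p x * g x) with hB
  have hskew : (∑ x, p x * g x) = 0 := by
    have h1 : (∑ x, p x * g x) = ∑ x, ∑ y, σ x y * (p x * p y) := by
      simp only [hg, Finset.mul_sum]
      exact Finset.sum_congr rfl fun x _ => Finset.sum_congr rfl fun y _ => by ring
    have h2 : (∑ x, ∑ y, σ x y * (p x * p y)) = - ∑ x, ∑ y, σ x y * (p x * p y) := by
      conv_lhs => rw [Finset.sum_comm]
      simp only [← Finset.sum_neg_distrib]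
      exact Finset.sum_congr rfl fun x _ => Finset.sum_congr rfl fun y _ => by
        rw [hσ y x]; ring
    linarith
  -- first order condition
  have hfoc : (∑ u ∈ U, w u * (B u / P u p)) = 0 := by
    set φ : ℝ → ℝ := fun t => ∑ u ∈ U, w u * Real.log (P u p + t * B u) with hφ
    have hder : HasDerivAt φ (∑ u ∈ U, w u * (B u / P u p)) 0 := by
      refine HasDerivAt.fun_sum fun u hu => ?_
      have h1 : HasDerivAt (fun t : ℝ => P u p + t * B u) (B u) 0 := by
        simpa using (((hasDerivAt_id (0:ℝ)).mul_const (B u)).const_add (P u p))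
      have h2 := (h1.log (by simpa using (hPp u hu).ne')).const_mul (w u)
      simpa using h2
    refine IsLocalMax.hasDerivAt_eq_zero ?_ hder
    have hev : ∀ᶠ t in nhds (0:ℝ), ∀ x, 0 < 1 + t * g x := by
      refine Filter.eventually_all.2 fun x => ?_
      have : Continuous fun t : ℝ => 1 + t * g x := by fun_prop
      exact (this.tendsto 0).eventually (lt_mem_nhds (by norm_num))
    have hev2 : ∀ᶠ t in nhds (0:ℝ), ∀ u ∈ U, 0 < P u p + t * B u := by
      refine (Finset.eventually_all U).2 fun u hu => ?_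
      have : Continuous fun t : ℝ => P u p + t * B u := by fun_prop
      exact (this.tendsto 0).eventually (lt_mem_nhds (by simpa using hPp u hu))
    filter_upwards [hev, hev2] with t ht ht2
    set q : V → ℝ := fun x => p x * (1 + t * g x) with hq
    have hqmem : q ∈ simplexOn Q := by
      refine ⟨⟨fun x => mul_nonneg (hp.1.1 x) (ht x).le, ?_⟩, fun x hx => by simp [hq, hp.2 x hx]⟩
      have : (∑ x, q x) = (∑ x, p x) + t * ∑ x, p x * g x := by
        rw [Finset.mul_sum, ← Finset.sum_add_distrib]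
        exact Finset.sum_congr rfl fun x _ => by simp only [hq]; ring
      rw [this, hskew, hp.1.2]; simp
    have hPq : ∀ u, P u q = P u p + t * B u := by
      intro u
      simp only [hP, hB, hq, Finset.mul_sum, ← Finset.sum_add_distrib]
      exact Finset.sum_congr rfl fun x _ => by ring
    have hle : Φ q ≤ Φ p := hmax hqmem
    have hlogp : Real.log (Φ p) = φ 0 := by
      simp only [hΦ, hφ, zero_mul, add_zero]
      rw [Real.log_prod fun u hu => (Real.rpow_pos_of_pos (hPp u hu) _).ne']
      exact Finset.sum_congr rfl fun u hu => Real.log_rpow (hPp u hu) _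
    have hlogq : Real.log (Φ q) = φ t := by
      simp only [hΦ, hφ, hPq]
      rw [Real.log_prod fun u hu => (Real.rpow_pos_of_pos (ht2 u hu) _).ne']
      exact Finset.sum_congr rfl fun u hu => Real.log_rpow (ht2 u hu) _
    have hΦq : 0 < Φ q := Finset.prod_pos fun u hu =>
      Real.rpow_pos_of_pos (by rw [hPq]; exact ht2 u hu) _
    rw [← hlogp, ← hlogq]
    exact Real.log_le_log hΦq hle
  -- pointwise inequality
  set C : V → ℝ := fun u => ∑ y, p y * score A y u with hC
  have hBC : ∀ u ∈ U, B u ≤ P u p * C u := by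
    intro u hu
    have h1 : 2 * B u = ∑ x, ∑ y, p x * p y * (σ x y * (ρ u x - ρ u y)) := by
      have e1 : B u = ∑ x, ∑ y, p x * p y * (σ x y * ρ u x) := by
        simp only [hB, hg, Finset.mul_sum]
        exact Finset.sum_congr rfl fun x _ => Finset.sum_congr rfl fun y _ => by ring
      have e2 : B u = ∑ x, ∑ y, p x * p y * (-(σ x y * ρ u y)) := by
        rw [e1]
        conv_lhs => rw [Finset.sum_comm]
        exact Finset.sum_congr rfl fun x _ => Finset.sum_congr rfl fun y _ => by
          rw [hσ y x]; ring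
      rw [two_mul]
      nth_rewrite 1 [e1]
      rw [e2, ← Finset.sum_add_distrib]
      refine Finset.sum_congr rfl fun x _ => ?_
      rw [← Finset.sum_add_distrib]
      exact Finset.sum_congr rfl fun y _ => by ring
    have h2 : 2 * (P u p * C u)
        = ∑ x, ∑ y, p x * p y * (ρ u x * score A y u + ρ u y * score A x u) := by
      have e1 : P u p * C u = ∑ x, ∑ y, p x * p y * (ρ u x * score A y u) := by
        simp only [hP, hC]
        rw [Finset.sum_mul_sum]
        exact (Finset.sum_congr rfl fun x _ => Finset.sum_congr rfl fun y _ => by ring)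
      have e2 : P u p * C u = ∑ x, ∑ y, p x * p y * (ρ u y * score A x u) := by
        rw [e1]
        conv_lhs => rw [Finset.sum_comm]
        exact Finset.sum_congr rfl fun x _ => Finset.sum_congr rfl fun y _ => by ring
      rw [two_mul]
      nth_rewrite 1 [e1]
      rw [e2, ← Finset.sum_add_distrib]
      refine Finset.sum_congr rfl fun x _ => ?_
      rw [← Finset.sum_add_distrib]
      exact Finset.sum_congr rfl fun y _ => by ring
    have h3 : 2 * B u ≤ 2 * (P u p * C u) := by
      rw [h1, h2]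
      refine Finset.sum_le_sum fun x _ => Finset.sum_le_sum fun y _ => ?_
      by_cases hx : x ∈ Q
      · by_cases hy : y ∈ Q
        · exact mul_le_mul_of_nonneg_left ((hcertU u hu).2 x hx y hy)
            (mul_nonneg (hp.1.1 x) (hp.1.1 y))
        · simp [hp.2 y hy]
      · simp [hp.2 x hx]
    linarith
  have htotal : 0 ≤ ∑ u, w u * C u := by
    rw [← Finset.sum_add_sum_compl U]
    refine add_nonneg ?_ (Finset.sum_nonneg fun u hu => ?_)
    · rw [← hfoc]
      refine Finset.sum_le_sum fun u hu => mul_le_mul_of_nonneg_left ?_ (hw u)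
      rw [div_le_iff₀ (hPp u hu)]
      linarith [hBC u hu]
    · rcases (hw u).eq_or_lt with h0 | hpos
      · simp [← h0]
      · have hno : ∀ y ∈ Q, ¬ A y u := fun y hy hyu =>
          Finset.mem_compl.1 hu (Finset.mem_filter.2 ⟨Finset.mem_univ u, hpos, y, hy, hyu⟩)
        refine mul_nonneg (hw u) (Finset.sum_nonneg fun y _ => ?_)
        by_cases hy : y ∈ Q
        · exact mul_nonneg (hp.1.1 y) (score_nonneg (hno y hy))
        · simp [hp.2 y hy]
  by_contra hcon
  push Not at hcon
  have hsw : (∑ u, w u * C u) = ∑ v, p v * ∑ u, w u * score A v u := by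
    simp only [hC, Finset.mul_sum]
    rw [Finset.sum_comm]
    exact Finset.sum_congr rfl fun v _ => Finset.sum_congr rfl fun u _ => by ring
  have hneg : (∑ v, p v * ∑ u, w u * score A v u) < 0 := by
    refine Finset.sum_neg' (fun v _ => ?_) ?_
    · by_cases hv : v ∈ Q
      · exact mul_nonpos_of_nonneg_of_nonpos (hp.1.1 v) (hcon v hv).le
      · simp [hp.2 v hv]
    · obtain ⟨v, -, hv⟩ := Finset.exists_ne_zero_of_sum_ne_zero
        (s := Finset.univ) (f := p) (by rw [hp.1.2]; norm_num)
      have hvQ : v ∈ Q := by_contra fun h => hv (hp.2 v h)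
      exact ⟨v, Finset.mem_univ v, mul_neg_of_pos_of_neg
        ((hp.1.1 v).lt_of_ne (Ne.symm hv)) (hcon v hvQ)⟩
  linarith

end Vale.Agent.P038
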