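import Vale.Agent.P038.EntropyCriterion

namespace Vale.Agent.P038

open Finset

variable {V : Type*}

/-- `u` is not within out-distance `1` or `2` of `x` (this includes `u = x`). -/
def FarFrom (A : V → V → Prop) (x u : V) : Prop :=
  x = u ∨ (¬ A x u ∧ ¬ DistTwo A x u)

/-- Every out-neighbour of `x` is within out-distance `1` or `2` of `y`. -/
def Covered (A : V → V → Prop) (x y : V) : Prop :=
  ∀ z, A x z → A y z ∨ DistTwo A y z

/-- The ordinary Seymour inequality for weights: the certificate criterion. -/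
theorem criterion_sums [Fintype V] (A : V → V → Prop)
    (Q : Finset V) (hQ : Q.Nonempty) (σ : V → V → ℝ) (hσ : ∀ x y, σ x y = -σ y x)
    (ρ : V → V → ℝ) (hρ : ∀ u x, 0 ≤ ρ u x)
    (hcert : ∀ u, (∀ y ∈ Q, ¬ A y u) ∨
      ((∃ x ∈ Q, 0 < ρ u x) ∧ ∀ x ∈ Q, ∀ y ∈ Q,
        σ x y * (ρ u x - ρ u y) ≤ ρ u x * score A y u + ρ u y * score A x u))
    (w : V → ℝ) (hw : ∀ u, 0 ≤ w u) :
    ∃ v ∈ Q, (∑ᶠ u ∈ {u | A v u}, w u) ≤ ∑ᶠ u ∈ {u | DistTwo A v u}, w u := by
  classical
  obtain ⟨v, hv, hsum⟩ := weighted_criterion A Q hQ σ hσ ρ hρ hcert w hw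
  refine ⟨v, hv, ?_⟩
  rw [score_sum] at hsum
  rw [finsum_mem_eq_finite_toFinset_sum _ (Set.toFinite _),
    finsum_mem_eq_finite_toFinset_sum _ (Set.toFinite _)]
  simp only [Set.Finite.toFinset_setOf]
  linarith

/-- A set all of whose non-adjacent pairs are good, and which has a far member for every
vertex it points to, contains a weighted Seymour vertex. -/
theorem goodSet_seymour [Fintype V] (A : V → V → Prop) (hirr : ∀ x, ¬ A x x)
    (horient : ∀ x y, A x y → ¬ A y x) (Q : Finset V) (hQ : Q.Nonempty)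
    (hgood : ∀ x ∈ Q, ∀ y ∈ Q, x ≠ y → ¬ A x y → ¬ A y x → Covered A x y ∨ Covered A y x)
    (hfar : ∀ u, (∃ y ∈ Q, A y u) → ∃ x ∈ Q, FarFrom A x u)
    (w : V → ℝ) (hw : ∀ u, 0 ≤ w u) :
    ∃ v ∈ Q, (∑ᶠ u ∈ {u | A v u}, w u) ≤ ∑ᶠ u ∈ {u | DistTwo A v u}, w u := by
  classical
  -- the completion: non-adjacent pairs are oriented towards the covering side
  let s : V → V → ℝ := fun x y =>
    if x = y then 0 else if A x y then 1 else if A y x then -1
    else if Covered A y x ∧ ¬ Covered A x y then 1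
    else if Covered A x y ∧ ¬ Covered A y x then -1 else 0
  have hskew : ∀ x y, s x y = -s y x := by
    intro x y
    by_cases hxy : x = y
    · subst hxy; simp [s]
    by_cases h1 : A x y
    · simp [s, hxy, Ne.symm hxy, h1, horient x y h1]
    by_cases h2 : A y x
    · simp [s, hxy, Ne.symm hxy, h1, h2]
    by_cases c1 : Covered A y x <;> by_cases c2 : Covered A x y <;>
      simp [s, hxy, Ne.symm hxy, h1, h2, c1, c2]
  have hone : ∀ x y, s x y ≤ 1 := by
    intro x y
    simp only [s]
    split_ifs <;> norm_num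
  let r : V → V → ℝ := fun u x => if FarFrom A x u then 1 else 0
  have hr : ∀ u x, 0 ≤ r u x := fun u x => by
    simp only [r]; split_ifs <;> norm_num
  have hfar_score : ∀ x u, FarFrom A x u → score A x u = 0 := by
    rintro x u (rfl | ⟨h1, h2⟩)
    · have : ¬ DistTwo A x x := fun h => h.1 rfl
      simp [score, hirr x, this]
    · simp [score, h1, h2]
  -- key one-sided inequality
  have hkey : ∀ u, ∀ x ∈ Q, ∀ y ∈ Q, FarFrom A x u → ¬ FarFrom A y u → s x y ≤ score A y u := by
    intro u x hx y hy hxu hyu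
    by_cases hAy : A y u
    · have hscore : score A y u = -1 := by simp [score, hAy]
      rw [hscore]
      have hne : x ≠ y := fun h => hyu (h ▸ hxu)
      have hnxy : ¬ A x y := by
        intro h
        rcases hxu with rfl | ⟨h1, h2⟩
        · exact horient _ _ h hAy
        · by_cases hux : u = x
          · subst hux; exact horient _ _ h hAy
          · exact h2 ⟨hux, h1, y, h, hAy⟩
      by_cases hyx : A y x
      · simp [s, hne, hnxy, hyx]
      have hnc : ¬ Covered A y x := by
        intro hc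
        rcases hxu with rfl | ⟨h1, h2⟩
        · exact hyx hAy
        · rcases hc u hAy with h | h
          · exact h1 h
          · exact h2 h
      have hc : Covered A x y := (hgood x hx y hy hne hnxy hyx).resolve_right hnc
      simp [s, hne, hnxy, hyx, hnc, hc]
    · have hd : DistTwo A y u := by
        by_contra hd
        exact hyu (Or.inr ⟨hAy, hd⟩)
      have hscore : score A y u = 1 := by simp [score, hAy, hd]
      rw [hscore]
      exact hone x y
  refine criterion_sums A Q hQ s hskew r hr (fun u => ?_) w hw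
  by_cases hu : ∃ y ∈ Q, A y u
  · right
    obtain ⟨x, hx, hxu⟩ := hfar u hu
    refine ⟨⟨x, hx, by simp [r, hxu]⟩, fun x hx y hy => ?_⟩
    by_cases fx : FarFrom A x u <;> by_cases fy : FarFrom A y u
    · simp [r, fx, fy, hfar_score x u fx, hfar_score y u fy]
    · simpa [r, fx, fy] using hkey u x hx y hy fx fy
    · have := hkey u y hy x hx fy fx
      rw [hskew y x] at this
      simpa [r, fx, fy] using this
    · simp [r, fx, fy]
  · left
    exact fun y hy hA => hu ⟨y, hy, hA⟩

/-- In particular every clique either contains a weighted Seymour vertex or has a common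
vertex within out-distance two of all of its members. -/
theorem clique_seymour [Fintype V] (A : V → V → Prop) (hirr : ∀ x, ¬ A x x)
    (horient : ∀ x y, A x y → ¬ A y x) (Q : Finset V) (hQ : Q.Nonempty)
    (hclique : ∀ x ∈ Q, ∀ y ∈ Q, x ≠ y → A x y ∨ A y x)
    (w : V → ℝ) (hw : ∀ u, 0 ≤ w u) :
    (∃ v ∈ Q, (∑ᶠ u ∈ {u | A v u}, w u) ≤ ∑ᶠ u ∈ {u | DistTwo A v u}, w u) ∨
      ∃ u, (∃ y ∈ Q, A y u) ∧ ∀ x ∈ Q, A x u ∨ DistTwo A x u := by
  by_cases h : ∃ u, (∃ y ∈ Q, A y u) ∧ ∀ x ∈ Q, A x u ∨ DistTwo A x u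
  · exact Or.inr h
  refine Or.inl (goodSet_seymour A hirr horient Q hQ ?_ ?_ w hw)
  · intro x hx y hy hne h1 h2
    rcases hclique x hx y hy hne with h' | h'
    · exact absurd h' h1
    · exact absurd h' h2
  · intro u hu
    by_contra hc
    push Not at hc
    refine h ⟨u, hu, fun x hx => ?_⟩
    have := hc x hx
    simp only [FarFrom, not_or, not_and, not_not] at this
    by_cases hA : A x u
    · exact Or.inl hA
    · exact Or.inr (this.2 hA)

end Vale.Agent.P038
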